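import Vale.Agent.P052.Data

namespace Vale.Agent.P052

def tbl : ℕ := 0x2b55c00579a000745820cd26300104eb0058829093e35430c9080008c851b3b04e02e3593ec162f428027ed935a3a1a95328fa1210000ec48a22189e381e3b9f0293581295c84a59801f8df0611860f54332400bba00a9b434361651e518747d2cab332047e088508422f9002307839129e946002231c50578e9fc3e8a3c314fac30a85e6d2b818654d2672ce096cd5a4b400717ec15c0d60686c8ef218aa1ec0043ca194d30039d78ea004e8569e6d9346abf36b3cb45e482d8a4ed87cbe41144b8015800339cd0462203fc133d85c1c451a09389f42e003611a941e83c74a113074f7345212400de22bd190ba148ccb0508f2a90007103e116383c8018c563f22588c20b4a831259bb3258708235434f1538024ed2733a6729d262f99c5d5abb25d1300000e4617f4f20d19708b5ae9307280393324375e6b91913d52067b8dc0055443065324659bda8f000345d09c5e971d712001827718162493f326e2e09c051b1518123373bda09b2dc44bf1748cc56e0429c89dc9a8845a600390a662a024c0040000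

/-- Index of the lowest set bit (only used as a heuristic; soundness does not depend on it). -/
def low (c : ℕ) : ℕ :=
  Nat.mod (Nat.shiftRight tbl (Nat.mul 9 (Nat.mod (Nat.land c (Nat.xor c (Nat.sub c 1))) 347))) 512

def enc (c : ℕ) : ℕ := Nat.add (Nat.shiftLeft c 64) (Nat.mod c 2305843009213693951)

def dec (x : ℕ) : ℕ := Nat.shiftRight x 64

theorem dec_enc (c : ℕ) : dec (enc c) = c := by
  have : dec (enc c) = (c <<< 64 + c % 2305843009213693951) >>> 64 := rfl
  rw [this, Nat.shiftLeft_eq, Nat.shiftRight_eq_div_pow]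
  omega

def loop (g : ℕ → Bool) (f : ℕ) : ℕ → Bool :=
  Nat.rec (fun _ => false)
    (fun _ ih x => cond (Nat.beq (dec x) 0) true
      (force (low (dec x)) fun v => force (enc (Nat.xor (dec x) (Nat.pow 2 v))) fun r =>
        force (enc (Nat.land (dec r) (row v))) g && ih r)) f

def noClique (k : ℕ) : ℕ → Bool :=
  Nat.rec (fun _ => false) (fun _ ih => loop ih 400) k

theorem loop_succ (g : ℕ → Bool) (f x : ℕ) : loop g (f + 1) x =
    cond (Nat.beq (dec x) 0) true
      (g (enc ((dec x ^^^ 2 ^ low (dec x)) &&& row (low (dec x)))) &&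
        loop g f (enc (dec x ^^^ 2 ^ low (dec x)))) := by
  have : loop g (f + 1) x = cond (Nat.beq (dec x) 0) true
      (force (low (dec x)) fun v => force (enc (Nat.xor (dec x) (Nat.pow 2 v))) fun r =>
        force (enc (Nat.land (dec r) (row v))) g && loop g f r) := rfl
  rw [this, force_eq, force_eq, force_eq, dec_enc]
  rfl

def Good (k c : ℕ) : Prop :=
  ∀ S : Finset ℕ, S.card = k → (∀ u ∈ S, c.testBit u = true) →
    (∀ u ∈ S, ∀ w ∈ S, u ≠ w → adj u w = true) → False

theorem loop_sound (g : ℕ → Bool) (k : ℕ) (hg : ∀ c, g c = true → Good k (dec c)) :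
    ∀ f x, loop g f x = true → Good (k + 1) (dec x) := by
  intro f
  induction f with
  | zero => intro c h; exact absurd h (by simp [loop])
  | succ f ih =>
    intro x h S hS hc ha
    rw [loop_succ] at h
    obtain ⟨c, hcx⟩ : ∃ c, c = dec x := ⟨_, rfl⟩
    rw [← hcx] at h hc
    by_cases h0 : c = 0
    · obtain ⟨u, hu⟩ : S.Nonempty := Finset.card_pos.mp (by omega)
      have := hc u hu
      rw [h0] at this
      simp at this
    · have hb : Nat.beq c 0 = false := by
        cases hb : Nat.beq c 0
        · rfl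
        · exact absurd (Nat.eq_of_beq_eq_true hb) h0
      rw [hb, cond_false, Bool.and_eq_true] at h
      obtain ⟨v, hv⟩ : ∃ v, v = low c := ⟨_, rfl⟩
      rw [← hv] at h
      have hr : ∀ u ∈ S, u ≠ v → (c ^^^ 2 ^ v).testBit u = true := by
        intro u hu huv
        rw [Nat.testBit_xor, hc u hu, Nat.testBit_two_pow_of_ne (Ne.symm huv)]
        rfl
      by_cases hvS : v ∈ S
      · refine hg _ h.1 (S.erase v) (by rw [Finset.card_erase_of_mem hvS]; omega) ?_ ?_
        · intro u hu
          rw [Finset.mem_erase] at hu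
          rw [dec_enc, Nat.testBit_and, hr u hu.2 hu.1]
          have := ha v hvS u hu.2 (Ne.symm hu.1)
          simpa [adj] using this
        · intro u hu w hw huw
          exact ha u (Finset.mem_of_mem_erase hu) w (Finset.mem_of_mem_erase hw) huw
      · exact ih _ h.2 S hS (fun u hu => by rw [dec_enc]; exact hr u hu (fun e => hvS (e ▸ hu))) ha

theorem noClique_sound : ∀ k c, noClique k c = true → Good k (dec c) := by
  intro k
  induction k with
  | zero => intro c h; exact absurd h (by simp [noClique])
  | succ k ih => intro c h; exact loop_sound (noClique k) k ih 400 c h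

theorem clique_check : noClique 6 (enc (Nat.sub (Nat.pow 2 321) 1)) = true := by decide +kernel

theorem no_six (S : Finset ℕ) (hS : S.card = 6) (h1 : ∀ u ∈ S, u < 321)
    (h2 : ∀ u ∈ S, ∀ w ∈ S, u ≠ w → adj u w = true) : False := by
  refine noClique_sound _ _ clique_check S hS ?_ h2
  intro u hu
  have : Nat.sub (Nat.pow 2 321) 1 = 2 ^ 321 - 1 := rfl
  rw [dec_enc, this, Nat.testBit_two_pow_sub_one]
  simpa using h1 u hu

end Vale.Agent.P052
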