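import Mathlib

namespace Vale.Agent.P052

open Finset

theorem digits_zero (B : ℤ) (hB : 0 < B) : ∀ (n : ℕ) (d : ℕ → ℤ), (∀ k < n, |d k| < B) →
    ∑ k ∈ range n, d k * B ^ k = 0 → ∀ k < n, d k = 0 := by
  intro n
  induction n with
  | zero => intro d _ _ k hk; omega
  | succ n ih =>
    intro d hd hs
    rw [Finset.sum_range_succ'] at hs
    have e : ∑ k ∈ range n, d (k + 1) * B ^ (k + 1) = B * ∑ k ∈ range n, d (k + 1) * B ^ k := by
      rw [Finset.mul_sum]; exact Finset.sum_congr rfl fun k _ => by ring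
    rw [e, pow_zero, mul_one] at hs
    have h0 : d 0 = 0 := by
      refine Int.eq_zero_of_abs_lt_dvd (m := B) ⟨-∑ k ∈ range n, d (k + 1) * B ^ k, by linarith⟩
        (hd 0 (by omega))
    rw [h0, add_zero] at hs
    have h1 : ∑ k ∈ range n, d (k + 1) * B ^ k = 0 := by
      rcases mul_eq_zero.mp hs with h | h
      · omega
      · exact h
    have := ih (fun k => d (k + 1)) (fun k hk => hd (k + 1) (by omega)) h1
    intro k hk
    cases k with
    | zero => exact h0
    | succ k => exact this k (by omega)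

/-- A symmetric matrix with `M * M = 96 M` and trace `96 * 63` is, up to the factor 96, the Gram
matrix of vectors in `ℝ^63`. -/
theorem gram (n : ℕ) (M : Matrix (Fin n) (Fin n) ℝ) (hs : ∀ i j, M i j = M j i)
    (hm : ∀ i k, ∑ j, M i j * M j k = 96 * M i k) (ht : ∑ i, M i i = 96 * 63) :
    ∃ q : Fin n → EuclideanSpace ℝ (Fin 63), ∀ i j, inner ℝ (q i) (q j) = 96 * M i j := by
  obtain ⟨P, hP⟩ : ∃ P : Matrix (Fin n) (Fin n) ℝ, P = (1 / 96 : ℝ) • M := ⟨_, rfl⟩
  have hPP : P * P = P := by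
    ext i k
    rw [hP, Matrix.mul_apply]
    simp only [Matrix.smul_apply, smul_eq_mul]
    have : ∑ j, 1 / 96 * M i j * (1 / 96 * M j k) = (1 / 96) * (1 / 96) * ∑ j, M i j * M j k := by
      rw [Finset.mul_sum]; exact Finset.sum_congr rfl fun k _ => by ring
    rw [this, hm]; ring
  obtain ⟨T, hT⟩ : ∃ T : EuclideanSpace ℝ (Fin n) →ₗ[ℝ] EuclideanSpace ℝ (Fin n),
      T = Matrix.toLin (EuclideanSpace.basisFun (Fin n) ℝ).toBasis
        (EuclideanSpace.basisFun (Fin n) ℝ).toBasis P := ⟨_, rfl⟩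
  have hid : IsIdempotentElem T := by
    show T * T = T
    rw [hT, Module.End.mul_eq_comp, ← Matrix.toLin_mul, hPP]
  have htr : LinearMap.trace ℝ _ T = 63 := by
    rw [hT, Matrix.trace_toLin_eq, hP, Matrix.trace_smul]
    simp only [Matrix.trace, Matrix.diag, smul_eq_mul]
    rw [ht]; norm_num
  have hrk : Module.finrank ℝ (LinearMap.range T) = 63 := by
    have := ((LinearMap.isProj_range_iff_isIdempotentElem T).mpr hid).trace
    rw [htr] at this
    exact_mod_cast this.symm
  obtain ⟨b, -⟩ : ∃ b : OrthonormalBasis (Fin 63) ℝ (LinearMap.range T), True :=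
    ⟨(stdOrthonormalBasis ℝ (LinearMap.range T)).reindex (finCongr hrk), trivial⟩
  have hmem : ∀ i, (WithLp.toLp 2 (fun k => M k i) : EuclideanSpace ℝ (Fin n)) ∈
      LinearMap.range T := by
    intro i
    refine ⟨WithLp.toLp 2 (fun k => M k i), ?_⟩
    rw [hT, ← Matrix.toEuclideanLin_eq_toLin_orthonormal]
    ext k
    have : (Matrix.toEuclideanLin P (WithLp.toLp 2 (fun k => M k i))) k = ∑ j, P k j * M j i := rfl
    rw [this, hP]
    simp only [Matrix.smul_apply, smul_eq_mul]
    have : ∑ j, 1 / 96 * M k j * M j i = (1 / 96) * ∑ j, M k j * M j i := by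
      rw [Finset.mul_sum]; exact Finset.sum_congr rfl fun k _ => by ring
    rw [this, hm]; ring
  refine ⟨fun i => b.repr ⟨_, hmem i⟩, fun i j => ?_⟩
  rw [LinearIsometryEquiv.inner_map_map, Submodule.coe_inner, PiLp.inner_apply, ← hm i j]
  refine Finset.sum_congr rfl fun k _ => ?_
  simp only [RCLike.inner_apply, conj_trivial]
  rw [hs i k]; ring

end Vale.Agent.P052
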