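import Vale.Agent.P052.Mat
import Vale.Agent.P052.Lin

namespace Vale.Agent.P052

open Finset

def LL (n : ℕ) (acc : List (ℕ × ℕ)) : List (ℕ × ℕ) :=
  (List.range n).map (fun j => (j, RR j)) ++ acc

theorem build_eq (K : List (ℕ × ℕ) → Bool) : ∀ n acc, build K n acc = K (LL n acc) := by
  intro n
  induction n with
  | zero => intro acc; rfl
  | succ n ih =>
    intro acc
    have : build K (n + 1) acc = force (RR n) fun r => build K n ((n, r) :: acc) := rfl
    rw [this, force_eq, ih]
    simp [LL, List.range_succ]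

theorem dot_eq (i : ℕ) : ∀ L : List (ℕ × ℕ), dot i L = (L.map fun p => NN i p.1 * p.2).sum := by
  intro L
  induction L with
  | nil => rfl
  | cons p L ih => rw [List.map_cons, List.sum_cons, ← ih]; rfl

theorem all_spec (g : ℕ × ℕ → Bool) : ∀ L : List (ℕ × ℕ),
    (List.rec true (fun p _ b => g p && b) L : Bool) = true → ∀ p ∈ L, g p = true := by
  intro L
  induction L with
  | nil => intro _ p hp; simp at hp
  | cons a L ih =>
    intro h p hp
    have h' : (g a && (List.rec true (fun p _ b => g p && b) L : Bool)) = true := h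
    rw [Bool.and_eq_true] at h'
    rcases List.mem_cons.mp hp with e | e
    · rw [e]; exact h'.1
    · exact ih h'.2 p e

theorem RR_eq (j : ℕ) : RR j = ∑ k ∈ range 416, NN j k * (2 ^ 18) ^ k := by
  rw [RR, sumN_eq]
  refine Finset.sum_congr rfl fun k _ => ?_
  have : Nat.shiftLeft (NN j k) (Nat.mul 18 k) = NN j k <<< (18 * k) := rfl
  rw [this, Nat.shiftLeft_eq, pow_mul]

theorem ones_eq : ones = ∑ k ∈ range 416, (2 ^ 18) ^ k := by
  rw [ones, sumN_eq]
  refine Finset.sum_congr rfl fun k _ => ?_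
  have : Nat.shiftLeft 1 (Nat.mul 18 k) = 1 <<< (18 * k) := rfl
  rw [this, Nat.shiftLeft_eq, pow_mul, one_mul]

theorem beq_aux (a b c : ℕ) (h : Nat.beq a (Nat.add (Nat.mul 96 b) (Nat.mul 3456 c)) = true) :
    a = 96 * b + 3456 * c := Nat.eq_of_beq_eq_true h

theorem fin_spec (L : List (ℕ × ℕ)) (o : ℕ)
    (h : (List.rec true (fun p _ b =>
      Nat.beq (dot p.1 L) (Nat.add (Nat.mul 96 p.2) (Nat.mul 3456 o)) && b) L : Bool) = true)
    (i r : ℕ) (hp : (i, r) ∈ L) : dot i L = 96 * r + 3456 * o :=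
  beq_aux _ _ _ (all_spec (fun p => Nat.beq (dot p.1 L)
    (Nat.add (Nat.mul 96 p.2) (Nat.mul 3456 o))) L h (i, r) hp)

theorem sum_aux (a F : ℕ → ℕ) (n : ℕ) :
    ((List.range n).map ((fun p : ℕ × ℕ => a p.1 * p.2) ∘ fun j => (j, F j))).sum =
      ∑ j ∈ range n, a j * F j := by
  induction n with
  | zero => simp
  | succ n ih =>
    rw [List.range_succ, List.map_append, List.sum_append, ih, Finset.sum_range_succ]
    simp

theorem dot_LL (i n : ℕ) : dot i (LL n []) = ∑ j ∈ range n, NN i j * RR j := by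
  rw [dot_eq, LL, List.append_nil, List.map_map]
  exact sum_aux (NN i) RR n

theorem fin_spec' (L : List (ℕ × ℕ)) (h : fin L = true)
    (i r : ℕ) (hp : (i, r) ∈ L) : dot i L = 96 * r + 3456 * ones := by
  rw [fin, force_eq] at h
  exact fin_spec L ones h i r hp

theorem mem_LL (n i : ℕ) (hi : i < n) : (i, RR i) ∈ LL n [] := by
  rw [LL, List.append_nil]; exact List.mem_map.mpr ⟨i, List.mem_range.mpr hi, rfl⟩

theorem row_id' (n : ℕ) (h : build fin n [] = true) (i : ℕ) (hi : i < n) :
    ∑ j ∈ range n, NN i j * RR j = 96 * RR i + 3456 * ones := by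
  rw [build_eq] at h
  exact (dot_LL i n).symm.trans (fin_spec' (LL n []) h i (RR i) (mem_LL n i hi))

theorem row_id (i : ℕ) (hi : i < 416) :
    ∑ j ∈ range 416, NN i j * RR j = 96 * RR i + 3456 * ones :=
  row_id' 416 mat_check i hi

theorem NN_le (i j : ℕ) : NN i j ≤ 23 := by
  have : NN i j = (cond (adj i j) 4 0) + (cond (Nat.beq i j) 16 0) +
    (cond (Nat.ble 320 i && Nat.ble 320 j)
      (cond (Nat.beq (Nat.div i 32) (Nat.div j 32)) 0 3) 2) := rfl
  rw [this]
  cases adj i j <;> cases Nat.beq i j <;> cases (Nat.ble 320 i && Nat.ble 320 j) <;>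
    cases Nat.beq (Nat.div i 32) (Nat.div j 32) <;> simp

theorem NN_sq (i : ℕ) (hi : i < 416) (k : ℕ) (hk : k < 416) :
    ∑ j ∈ range 416, NN i j * NN j k = 96 * NN i k + 3456 := by
  have h := row_id i hi
  have key := digits_zero (2 ^ 18) (by norm_num) 416
    (fun k => ((∑ j ∈ range 416, NN i j * NN j k : ℕ) : ℤ) - ((96 * NN i k + 3456 : ℕ) : ℤ)) ?_ ?_ k hk
  · have : ((∑ j ∈ range 416, NN i j * NN j k : ℕ) : ℤ) = ((96 * NN i k + 3456 : ℕ) : ℤ) := by
      linarith
    exact_mod_cast this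
  · intro k _
    have h1 : ∑ j ∈ range 416, NN i j * NN j k ≤ 416 * (23 * 23) := by
      have := Finset.sum_le_card_nsmul (range 416) (fun j => NN i j * NN j k) (23 * 23)
        (fun j _ => Nat.mul_le_mul (NN_le i j) (NN_le j k))
      rwa [Finset.card_range, smul_eq_mul] at this
    have h2 := NN_le i k
    obtain ⟨s, hs⟩ : ∃ s, s = ∑ j ∈ range 416, NN i j * NN j k := ⟨_, rfl⟩
    rw [← hs] at h1 ⊢
    rw [abs_lt]
    constructor <;> push_cast <;> omega
  · have e1 : ∑ j ∈ range 416, NN i j * RR j =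
        ∑ k ∈ range 416, (∑ j ∈ range 416, NN i j * NN j k) * (2 ^ 18) ^ k := by
      simp only [RR_eq, Finset.mul_sum, Finset.sum_mul]
      rw [Finset.sum_comm]
      exact Finset.sum_congr rfl fun k _ => Finset.sum_congr rfl fun j _ => by ring
    have e2 : 96 * RR i + 3456 * ones = ∑ k ∈ range 416, (96 * NN i k + 3456) * (2 ^ 18) ^ k := by
      rw [RR_eq, ones_eq, Finset.mul_sum, Finset.mul_sum, ← Finset.sum_add_distrib]
      exact Finset.sum_congr rfl fun k _ => by ring
    rw [e1, e2] at h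
    have h' := congrArg (Nat.cast : ℕ → ℤ) h
    rw [Nat.cast_sum, Nat.cast_sum] at h'
    simp only [sub_mul]
    rw [Finset.sum_sub_distrib, sub_eq_zero]
    simp only [Nat.cast_mul, Nat.cast_pow, Nat.cast_ofNat] at h' ⊢
    exact h'

theorem NN_symm (i : ℕ) (hi : i < 416) (j : ℕ) (hj : j < 416) : NN i j = NN j i := by
  rcases lt_trichotomy i j with h | h | h
  · exact (Nat.eq_of_beq_eq_true (allB_spec _ _ (allB_spec _ _ sym_check j hj) i h)).symm
  · rw [h]
  · exact Nat.eq_of_beq_eq_true (allB_spec _ _ (allB_spec _ _ sym_check i hi) j h)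

theorem NN_row (i : ℕ) (hi : i < 416) : ∑ j ∈ range 416, NN i j = 1248 := by
  rw [← sumN_eq]
  exact Nat.eq_of_beq_eq_true (allB_spec _ _ rowsum_check i hi)

theorem NN_trace : ∑ i ∈ range 416, NN i i = 7296 := by
  have := Nat.eq_of_beq_eq_true trace_check
  rw [sumN_eq] at this
  exact this

theorem adj_irr (i : ℕ) (hi : i < 416) : adj i i = false := by
  have := allB_spec _ _ irr_check i hi
  simpa using this

theorem exists_vectors : ∃ q : Fin 416 → EuclideanSpace ℝ (Fin 63),
    ∀ i j, inner ℝ (q i) (q j) = 96 * ((NN i j : ℝ) - 3) := by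
  refine gram 416 (Matrix.of fun i j => (NN i j : ℝ) - 3) ?_ ?_ ?_
  · intro i j
    simp only [Matrix.of_apply]
    rw [NN_symm i i.2 j j.2]
  · intro i k
    simp only [Matrix.of_apply]
    have h1 : ∑ j : Fin 416, (NN i j : ℝ) * NN j k = 96 * NN i k + 3456 := by
      rw [← Finset.sum_range (fun j => (NN i j : ℝ) * NN j k)]
      exact_mod_cast NN_sq i i.2 k k.2
    have h2 : ∑ j : Fin 416, (NN i j : ℝ) = 1248 := by
      rw [← Finset.sum_range (fun j => (NN i j : ℝ))]
      exact_mod_cast NN_row i i.2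
    have h3 : ∑ j : Fin 416, (NN j k : ℝ) = 1248 := by
      rw [Finset.sum_congr rfl (fun j _ => by rw [NN_symm j j.2 k k.2] :
        ∀ j ∈ (Finset.univ : Finset (Fin 416)), (NN j k : ℝ) = NN k j)]
      rw [← Finset.sum_range (fun j => (NN k j : ℝ))]
      exact_mod_cast NN_row k k.2
    have e : ∑ j : Fin 416, ((NN i j : ℝ) - 3) * (NN j k - 3) =
        ∑ j : Fin 416, (NN i j : ℝ) * NN j k - 3 * ∑ j : Fin 416, (NN i j : ℝ)
          - 3 * ∑ j : Fin 416, (NN j k : ℝ) + ∑ _j : Fin 416, (9 : ℝ) := by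
      rw [Finset.mul_sum, Finset.mul_sum, ← Finset.sum_sub_distrib, ← Finset.sum_sub_distrib,
        ← Finset.sum_add_distrib]
      exact Finset.sum_congr rfl fun j _ => by ring
    rw [e, h1, h2, h3, Finset.sum_const, Finset.card_univ, Fintype.card_fin, nsmul_eq_mul]
    push_cast
    ring
  · simp only [Matrix.of_apply]
    have h1 : ∑ j : Fin 416, (NN j j : ℝ) = 7296 := by
      rw [← Finset.sum_range (fun j => (NN j j : ℝ))]
      exact_mod_cast NN_trace
    rw [Finset.sum_sub_distrib, h1, Finset.sum_const, Finset.card_univ, Fintype.card_fin,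
      nsmul_eq_mul]
    norm_num

end Vale.Agent.P052
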