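import Vale.Agent.P052.Data

namespace Vale.Agent.P052

/-- The shifted Gram matrix (entries `M i j + 3`). -/
def NN (i j : ℕ) : ℕ :=
  Nat.add (Nat.add (cond (adj i j) 4 0) (cond (Nat.beq i j) 16 0))
    (cond (Nat.ble 320 i && Nat.ble 320 j) (cond (Nat.beq (Nat.div i 32) (Nat.div j 32)) 0 3) 2)

def RR (j : ℕ) : ℕ := sumN (fun k => Nat.shiftLeft (NN j k) (Nat.mul 18 k)) 416

def ones : ℕ := sumN (fun k => Nat.shiftLeft 1 (Nat.mul 18 k)) 416

def build (K : List (ℕ × ℕ) → Bool) (n : ℕ) : List (ℕ × ℕ) → Bool :=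
  Nat.rec K (fun j ih acc => force (RR j) fun r => ih ((j, r) :: acc)) n

def dot (i : ℕ) (L : List (ℕ × ℕ)) : ℕ :=
  List.rec 0 (fun p _ b => Nat.add (Nat.mul (NN i p.1) p.2) b) L

def fin (L : List (ℕ × ℕ)) : Bool :=
  force ones fun o =>
    List.rec true (fun p _ b => Nat.beq (dot p.1 L) (Nat.add (Nat.mul 96 p.2) (Nat.mul 3456 o)) && b) L

theorem mat_check : build fin 416 [] = true := by decide +kernel

theorem sym_check : allB (fun i => allB (fun j => Nat.beq (NN i j) (NN j i)) i) 416 = true := by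
  decide +kernel

theorem rowsum_check : allB (fun i => Nat.beq (sumN (NN i) 416) 1248) 416 = true := by
  decide +kernel

theorem trace_check : Nat.beq (sumN (fun i => NN i i) 416) 7296 = true := by
  decide +kernel

theorem irr_check : allB (fun i => !(adj i i)) 416 = true := by
  decide +kernel

end Vale.Agent.P052
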